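import Vale.Agent.H84.NCAssemble

/-!
# P314: an explicit polynomial-size hitting set of zero-one matrices for
product-of-sums-of-products noncommutative formulas, over every field
-/

namespace Vale.Agent.Results.P314.A_PiSigmaPiHittingSet

open Vale.Agent.H84

/-- For every field `F`, every `n`, `s` and every noncommutative formula `φ` over `F` in `n`
variables that is a product of sums of products of leaves, has size at most `s` and computes a
nonzero polynomial, there are `0 < c < q ≤ 2 (n + s^3)` such that the polynomial does not vanish
at the explicit tuple `hitTuple F n s q c` of zero-one matrices of dimension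
`(s + 1) (s q + 1)`. -/
theorem result (F : Type) [Field F] (n s : ℕ) (φ : NCFormula F n)
    (hφ : φ.IsPiSigmaPi) (hs : φ.size ≤ s) (h0 : φ.poly ≠ 0) :
    ∃ q c : ℕ, 0 < c ∧ c < q ∧ q ≤ 2 * (n + s ^ 3) ∧
      FreeAlgebra.lift F (hitTuple F n s q c) φ.poly ≠ 0 :=
  piSigmaPi_hit n s φ hφ hs h0

end Vale.Agent.Results.P314.A_PiSigmaPiHittingSet
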