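import Vale.Agent.H84.NCAssemble

/-!
# P314: an explicit polynomial-size hitting set of zero-one matrices for products of sparse
noncommutative polynomials, over every field
-/

namespace Vale.Agent.Results.P314.B_SparseProductHittingSet

open Vale.Agent.H84

/-- For every field `F` and all `n`, `t`, `D`: if `gs` is a list of nonzero coefficient functions
on words (that is, of nonzero noncommutative polynomials) with at most `t` monomials in total and
with degrees summing to at most `D`, then there are `0 < c < q ≤ 2 (n + t^2 D + 1)` such that
the product of these polynomials does not vanish at the explicit tuple `hitTuple F n D q c` of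
zero-one matrices of dimension `(D + 1) (D q + 1)`. -/
theorem result (F : Type) [Field F] (n t D : ℕ) (gs : List (List (Fin n) →₀ F))
    (hne : ∀ g ∈ gs, g ≠ 0)
    (ht : (gs.map fun g => g.support.card).sum ≤ t)
    (hD : (gs.map fun g => g.support.sup List.length).sum ≤ D) :
    ∃ q c : ℕ, 0 < c ∧ c < q ∧ q ≤ 2 * (n + t ^ 2 * D + 1) ∧
      FreeAlgebra.lift F (hitTuple F n D q c) (gs.map (combPoly F)).prod ≠ 0 :=
  sparseProduct_hit n t D gs hne ht hD

end Vale.Agent.Results.P314.B_SparseProductHittingSet
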