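import Vale.Agent.H84.NCAssemble

/-!
# P314: the two hitting-set theorems in one statement

(1) The statement of `A_PiSigmaPiHittingSet`: every Pi-Sigma-Pi noncommutative formula of size at
most `s` in `n` variables that computes a nonzero polynomial is nonzero at one of the explicit
tuples `hitTuple F n s q c` of zero-one matrices, `0 < c < q ≤ 2 (n + s^3)`.

(2) The statement of `B_SparseProductHittingSet`: every product of nonzero noncommutative
polynomials with at most `t` monomials in total and degrees summing to at most `D` is nonzero at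
one of the explicit tuples `hitTuple F n D q c`, `0 < c < q ≤ 2 (n + t^2 D + 1)`.
-/

namespace Vale.Agent.Results.P314.C_PiSigmaPiAndSparseProducts

open Vale.Agent.H84

theorem result :
    (∀ (F : Type) [Field F] (n s : ℕ) (φ : NCFormula F n),
      φ.IsPiSigmaPi → φ.size ≤ s → φ.poly ≠ 0 →
      ∃ q c : ℕ, 0 < c ∧ c < q ∧ q ≤ 2 * (n + s ^ 3) ∧
        FreeAlgebra.lift F (hitTuple F n s q c) φ.poly ≠ 0) ∧
    (∀ (F : Type) [Field F] (n t D : ℕ) (gs : List (List (Fin n) →₀ F)),
      (∀ g ∈ gs, g ≠ 0) →
      (gs.map fun g => g.support.card).sum ≤ t →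
      (gs.map fun g => g.support.sup List.length).sum ≤ D →
      ∃ q c : ℕ, 0 < c ∧ c < q ∧ q ≤ 2 * (n + t ^ 2 * D + 1) ∧
        FreeAlgebra.lift F (hitTuple F n D q c) (gs.map (combPoly F)).prod ≠ 0) :=
  ⟨fun _ _ n s φ hφ hs h0 => piSigmaPi_hit n s φ hφ hs h0,
    fun _ _ n t D gs hne ht hD => sparseProduct_hit n t D gs hne ht hD⟩

end Vale.Agent.Results.P314.C_PiSigmaPiAndSparseProducts
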